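import Mathlib
import Vale.Agent.P195D.Assembly

open CategoryTheory Abelian

theorem Vale.Agent.Results.P195.ARFalse.result (k : Type) [Field k] [CharZero k] :
    ∃ (R : Type) (_ : Ring R) (_ : Algebra k R) (_ : Module.Finite k R)
      (M : Type) (_ : AddCommGroup M) (_ : Module R M) (_ : Module.Finite R M),
      ¬ Module.Projective R M ∧ ∀ i : ℕ, 1 ≤ i →
        Subsingleton (Ext (ModuleCat.of R M) (ModuleCat.of R M) i) ∧
        Subsingleton (Ext (ModuleCat.of R M) (ModuleCat.of R R) i) :=
  Vale.Agent.P195D.counterexample
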