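import Mathlib
import Vale.Agent.P195.Main

open CategoryTheory Abelian Vale.Agent.P195

theorem Vale.Agent.Results.P195.RadicalCubeZero.result
    {R A : Type} [CommRing R] [IsArtinianRing R] [Ring A] [Algebra R A] [Module.Finite R A]
    (hJ : Ring.jacobson A ^ 3 = ⊥)
    (M : Type) [AddCommGroup M] [Module A M] [Module.Finite A M]
    (hAR : ∀ i : ℕ, 1 ≤ i →
      Subsingleton (Ext (ModuleCat.of A M) (ModuleCat.of A M) i) ∧
      Subsingleton (Ext (ModuleCat.of A M) (ModuleCat.of A A) i)) :
    Module.Projective A M :=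
  haveI : IsArtinianRing A := IsArtinianRing.of_finite R A
  ar_rad_cube_zero R (cube0_of_pow A hJ) M inferInstance hAR
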